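import Claimed.Agent.R316.Pack004
import Claimed.Agent.R316.CW.MatAlg

/-!
# Row 316, BP-S7-1a (sub-captain helper126), leaf L-S7-1a-1: the Levi form of a dual norm = square + Griffiths curvature (~900 lines, pure Wirtinger / matrix calculus)

PROVED (helper11); auxiliary lemmas: prefix `griff_`.  Proof of `qf_levi_dnorm`: second derivatives along the real lines `p + s Y`, `p + s iY` (`qf_levi_line`, `griff_line`).
Consumers: `S6/GDual.lean` (base = fibre = `ℂⁿ`: `N(·,0)` is psh on `T^*M`) and `S7/H1/LogTime.lean` (base `ℂⁿ × ℂ`, fibre `ℂⁿ`: joint positivity ⟹ Harnack).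

`H : CE κ → Matrix ι ι ℂ` smooth and positive definite on the open `O ⊆ CE κ` (a Hermitian metric on the trivial bundle `O × ℂ^ι`, column convention `|v|² = vᴴ H v`).
`dnorm H (x, ζ) = ζᴴ (H(x)⁻¹)ᵀ ζ = ηᴴ H(x)⁻¹ η`, `η = conj ζ` (squared norm on the dual bundle).
`griffM H x X = Θ(X, X̄) = ∑_{l m} X_l conj X_m (- ∂̄_m ∂_l H + ∂̄_m H H⁻¹ ∂_l H)` (Chern curvature contracted with `X`; a Hermitian matrix).

FORMULA (checked numerically, helper126).  `u = H⁻¹ η`, `A_X = ∑_l X_l ∂_l H`, `Γ = conj (A_Xᴴ u)`: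
  `qf (levi (dnorm H) p) (X, W) = qf (H⁻¹)ᵀ (W - Γ) + qf (griffM H x X) u`.
DERIVATION.  With `ω = conj W` the Levi form is `ηᴴ (∂_X ∂̄_X H⁻¹) η + ωᴴ (∂̄_X H⁻¹) η + ηᴴ (∂_X H⁻¹) ω + ωᴴ H⁻¹ ω`,  `∂ H⁻¹ = - H⁻¹ (∂H) H⁻¹` (`dzM_inv`, `dzbM_inv`),
  `∂_X ∂̄_X H⁻¹ = H⁻¹ A_X H⁻¹ A_Xᴴ H⁻¹ - H⁻¹ C_X H⁻¹ + H⁻¹ A_Xᴴ H⁻¹ A_X H⁻¹` (`C_X = ∑ X_l conj X_m ∂̄_m ∂_l H`, `(∂_l H)ᴴ = ∂̄_l H`: `conjTranspose_dzM_of_isHermitian`); complete the square in `ω`.
ROUTE.  `dnorm H p = (∑_{j k} (H (dBase p))⁻¹ k j * conj (p (inr j)) * p (inr k)).re`.  Entries of `levi` blockwise with `dz`/`dzb` of products (CW-1), where a function of `dBase p` only has `dz (inr j) = 0`, `dz (inl l) (G ∘ dBase) p = dz l G (dBase p)`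
(complex linear substitution: `dz_comp_hol`-type lemmas of CW-1/CW-2, or directly from `fderiv` of `G ∘ dBaseL`), the coordinate `p (inr k)` is holomorphic and `conj (p (inr j))` antiholomorphic.
* `griffM_isHermitian`: `(X_l conj X_m • T_{l m})ᴴ = X_m conj X_l • T_{m l}` with `T_{l m}ᴴ = T_{m l}` (`dzM_dzbM_comm`, `conjTranspose_dz(b)M_of_isHermitian` applied to `H` and to `dzM l H`…; swap the two sums).
* `griffM_posSemidef_of_levi`: given `u` take `p = dJoin x (toLp (star (H x *ᵥ u)))`, so that `H⁻¹ *ᵥ star (dFib p) = u`, and `W = Γ`.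
* `trace_inv_mul_griffM`: `levi_logDet_on` (CW-3).
* `bisec_eq_griffM`: unfold `bisec`, `Rm`, `griffM`, `qf`, `Matrix.mulVec`, `dotProduct`, `Matrix.mul_apply`; reorder finite sums.
-/

set_option autoImplicit false
set_option linter.unusedSectionVars false
open scoped ContDiff ComplexOrder Topology Matrix

namespace Claimed.Agent.R316

section defs

variable {κ ι : Type} [Fintype κ] [Fintype ι]

/-- base part of a point of `ℂ^{κ ⊕ ι}`. -/
noncomputable def dBase (p : CE (κ ⊕ ι)) : CE κ := WithLp.toLp 2 fun a => p (Sum.inl a)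

/-- fibre part of a point of `ℂ^{κ ⊕ ι}`. -/
def dFib (p : CE (κ ⊕ ι)) : ι → ℂ := fun j => p (Sum.inr j)

/-- `(x, ξ) ∈ ℂ^{κ ⊕ ι}`. -/
noncomputable def dJoin (x : CE κ) (ξ : CE ι) : CE (κ ⊕ ι) := WithLp.toLp 2 (Sum.elim x ξ)

variable [DecidableEq κ] [DecidableEq ι]

/-- the squared dual norm of the Hermitian metric `H` on `O × ℂ^ι`. -/
noncomputable def dnorm (H : CE κ → Matrix ι ι ℂ) (p : CE (κ ⊕ ι)) : ℝ :=
  qf ((H (dBase p))⁻¹)ᵀ (dFib p)

/-- the Chern curvature of `H` contracted with `X`: `Θ(X, X̄)`, a Hermitian matrix. -/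
noncomputable def griffM (H : CE κ → Matrix ι ι ℂ) (x : CE κ) (X : κ → ℂ) : Matrix ι ι ℂ :=
  ∑ l, ∑ m, (X l * star (X m)) •
    (- dzbM m (dzM l H) x + dzbM m H x * (H x)⁻¹ * dzM l H x)

end defs

section aux1
variable {ι : Type} [Fintype ι] [DecidableEq ι]

theorem griff_hasDerivAt_mulVec {M : ℝ → Matrix ι ι ℂ} {M' : Matrix ι ι ℂ} {y : ℝ → ι → ℂ}
    {y' : ι → ℂ} {t : ℝ} (hM : ∀ j k, HasDerivAt (fun s => M s j k) (M' j k) t)
    (hy : ∀ j, HasDerivAt (fun s => y s j) (y' j) t) (j : ι) :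
    HasDerivAt (fun s => (M s *ᵥ y s) j) ((M' *ᵥ y t) j + (M t *ᵥ y') j) t := by
  have h1 : HasDerivAt (fun s => ∑ k, M s j k * y s k)
      (∑ k, (M' j k * y t k + M t j k * y' k)) t :=
    HasDerivAt.fun_sum fun k _ => (hM j k).mul (hy k)
  rw [Finset.sum_add_distrib] at h1
  exact h1

theorem griff_hasDerivAt_dot {M : ℝ → Matrix ι ι ℂ} {M' : Matrix ι ι ℂ} {y : ℝ → ι → ℂ}
    {y' : ι → ℂ} {t : ℝ} (hM : ∀ j k, HasDerivAt (fun s => M s j k) (M' j k) t)
    (hy : ∀ j, HasDerivAt (fun s => y s j) (y' j) t) :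
    HasDerivAt (fun s => star (y s) ⬝ᵥ (M s *ᵥ y s))
      (star y' ⬝ᵥ (M t *ᵥ y t) + (star (y t) ⬝ᵥ (M' *ᵥ y t) + star (y t) ⬝ᵥ (M t *ᵥ y'))) t := by
  have h1 : HasDerivAt (fun s => ∑ j, star (y s j) * (M s *ᵥ y s) j)
      (∑ j, (star (y' j) * (M t *ᵥ y t) j + star (y t j) * ((M' *ᵥ y t) j + (M t *ᵥ y') j))) t :=
    HasDerivAt.fun_sum fun j _ => ((hy j).star).mul (griff_hasDerivAt_mulVec hM hy j)
  simp only [mul_add, Finset.sum_add_distrib] at h1
  exact h1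

theorem griff_re_swap {M : Matrix ι ι ℂ} (hM : M.IsHermitian) (a b : ι → ℂ) :
    (star a ⬝ᵥ (M *ᵥ b)).re = (star b ⬝ᵥ (M *ᵥ a)).re := by
  have : star a ⬝ᵥ (M *ᵥ b) = star (star b ⬝ᵥ (M *ᵥ a)) := by
    rw [← Matrix.star_dotProduct, Matrix.star_mulVec, hM.eq, ← Matrix.dotProduct_mulVec]
  rw [this, Complex.star_def, Complex.conj_re]

theorem griff_hasDerivAt_qf {M : ℝ → Matrix ι ι ℂ} {M' : Matrix ι ι ℂ} {y : ℝ → ι → ℂ}
    {y' : ι → ℂ} {t : ℝ} (hM : ∀ j k, HasDerivAt (fun s => M s j k) (M' j k) t)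
    (hherm : (M t).IsHermitian) (hy : ∀ j, HasDerivAt (fun s => y s j) (y' j) t) :
    HasDerivAt (fun s => qf (M s) (y s))
      (qf M' (y t) + 2 * (star (y t) ⬝ᵥ (M t *ᵥ y')).re) t := by
  have h1 := Complex.reCLM.hasFDerivAt.comp_hasDerivAt t (griff_hasDerivAt_dot hM hy)
  have e := griff_re_swap hherm y' (y t)
  have e2 : Complex.reCLM (star y' ⬝ᵥ (M t *ᵥ y t) +
      (star (y t) ⬝ᵥ (M' *ᵥ y t) + star (y t) ⬝ᵥ (M t *ᵥ y'))) =
      qf M' (y t) + 2 * (star (y t) ⬝ᵥ (M t *ᵥ y')).re := by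
    simp only [Complex.reCLM_apply, Complex.add_re, e, qf]
    ring
  rw [e2] at h1
  exact h1

/-- parallelogram law. -/
theorem griff_parallelogram {G : Matrix ι ι ℂ} (hG : G.IsHermitian) (a b : ι → ℂ) :
    qf G (a - b) + qf G (a + b) = 2 * qf G a + 2 * qf G b := by
  rw [sub_eq_add_neg, qf_add_vec _ _ hG, qf_add_vec _ _ hG, qf_neg_vec, Matrix.mulVec_neg,
    dotProduct_neg, Complex.neg_re]
  ring

/-- second derivative of `s ↦ (η + s om)ᴴ H(s)⁻¹ (η + s om)` at `0`. -/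
theorem griff_line {Hs H1 : ℝ → Matrix ι ι ℂ} {H2 : Matrix ι ι ℂ}
    (h1 : ∀ᶠ s in 𝓝 (0 : ℝ), ∀ j k, HasDerivAt (fun r => Hs r j k) (H1 s j k) s)
    (h2 : ∀ j k, HasDerivAt (fun r => H1 r j k) (H2 j k) 0)
    (hp : ∀ᶠ s in 𝓝 (0 : ℝ), (Hs s).PosDef) (hh : (H1 0).IsHermitian) (η om : ι → ℂ) :
    deriv (deriv fun s : ℝ => qf (Hs s)⁻¹ (η + s • om)) 0
      = 2 * qf (Hs 0)⁻¹ (om - H1 0 *ᵥ ((Hs 0)⁻¹ *ᵥ η)) - qf H2 ((Hs 0)⁻¹ *ᵥ η) := by
  have hy : ∀ (s : ℝ) (j : ι), HasDerivAt (fun r : ℝ => (η + r • om) j) (om j) s := by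
    intro s j
    have : HasDerivAt (fun r : ℝ => η j + r • om j) (om j) s := by
      simpa using ((hasDerivAt_id s).smul_const (om j)).const_add (η j)
    exact this
  set u : ℝ → ι → ℂ := fun s => (Hs s)⁻¹ *ᵥ (η + s • om) with hu
  have hd1 : deriv (fun s : ℝ => qf (Hs s)⁻¹ (η + s • om))
      =ᶠ[𝓝 0] fun s => - qf (H1 s) (u s) + 2 * (star om ⬝ᵥ u s).re := by
    filter_upwards [h1, hp] with s hs hps
    have hG : ((Hs s)⁻¹).IsHermitian := hps.inv.isHermitian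
    have := griff_hasDerivAt_qf (M := fun r => (Hs r)⁻¹) (y := fun r : ℝ => η + r • om)
      (fun j k => hasDerivAt_matInv hs hps.det_pos.ne' j k) hG (hy s)
    rw [this.deriv, qf_neg, griff_re_swap hG]
    have e : qf ((Hs s)⁻¹ * H1 s * (Hs s)⁻¹) (η + s • om) = qf (H1 s) (u s) := by
      rw [← qf_conj, hG.eq]
    rw [e]
  rw [hd1.deriv_eq]
  have hp0 : (Hs 0).PosDef := hp.self_of_nhds
  have hG0 : ((Hs 0)⁻¹).IsHermitian := hp0.inv.isHermitian
  have hu0 : u 0 = (Hs 0)⁻¹ *ᵥ η := by simp [hu]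
  set δ : ι → ℂ := om - H1 0 *ᵥ ((Hs 0)⁻¹ *ᵥ η) with hδ
  have hud : ∀ j, HasDerivAt (fun s => u s j) (((Hs 0)⁻¹ *ᵥ δ) j) 0 := by
    intro j
    have := griff_hasDerivAt_mulVec (M := fun r => (Hs r)⁻¹) (y := fun r : ℝ => η + r • om)
      (fun j k => hasDerivAt_matInv h1.self_of_nhds hp0.det_pos.ne' j k) (hy 0) j
    have e : ((-((Hs 0)⁻¹ * H1 0 * (Hs 0)⁻¹)) *ᵥ (η + (0 : ℝ) • om)) j + ((Hs 0)⁻¹ *ᵥ om) j
        = ((Hs 0)⁻¹ *ᵥ δ) j := by
      rw [hδ, Matrix.mulVec_sub, zero_smul, add_zero, Matrix.neg_mulVec, Matrix.mulVec_mulVec,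
        Matrix.mulVec_mulVec, Pi.sub_apply, Pi.neg_apply]
      ring
    rw [e] at this
    exact this
  have hA := griff_hasDerivAt_qf (M := H1) (y := u) h2 hh hud
  have hB : HasDerivAt (fun s => (star om ⬝ᵥ u s).re) (star om ⬝ᵥ ((Hs 0)⁻¹ *ᵥ δ)).re 0 := by
    have h3 : HasDerivAt (fun s => ∑ j, star om j * u s j) (∑ j, star om j * ((Hs 0)⁻¹ *ᵥ δ) j) 0 :=
      HasDerivAt.fun_sum fun j _ => (hud j).const_mul _
    exact Complex.reCLM.hasFDerivAt.comp_hasDerivAt 0 h3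
  have hC : HasDerivAt (fun s => -qf (H1 s) (u s) + 2 * (star om ⬝ᵥ u s).re) _ 0 :=
    (hA.neg).add (hB.const_mul 2)
  rw [hC.deriv, hu0]
  have e1 : qf (Hs 0)⁻¹ δ = (star om ⬝ᵥ ((Hs 0)⁻¹ *ᵥ δ)).re
      - (star ((Hs 0)⁻¹ *ᵥ η) ⬝ᵥ (H1 0 *ᵥ ((Hs 0)⁻¹ *ᵥ δ))).re := by
    conv_lhs => rw [qf, hδ, star_sub, sub_dotProduct, Complex.sub_re, ← hδ]
    rw [Matrix.star_mulVec, hh.eq, ← Matrix.dotProduct_mulVec]
  rw [e1]
  ring

end aux1
section thms

variable {κ ι : Type} [Fintype κ] [DecidableEq κ] [Fintype ι] [DecidableEq ι]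
variable {H : CE κ → Matrix ι ι ℂ} {O : Set (CE κ)}

@[simp] theorem dBase_dJoin (x : CE κ) (ξ : CE ι) : dBase (dJoin x ξ) = x := by
  ext a
  simp [dBase, dJoin]

@[simp] theorem dFib_dJoin (x : CE κ) (ξ : CE ι) : dFib (dJoin x ξ) = ξ := by
  funext a
  simp [dFib, dJoin]

/-- `dBase` as a continuous real linear map. -/
noncomputable def griff_dBaseL : CE (κ ⊕ ι) →L[ℝ] CE κ :=
  LinearMap.toContinuousLinearMap
    { toFun := dBase
      map_add' := fun x y => by ext a; simp [dBase]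
      map_smul' := fun c x => by ext a; simp [dBase] }

theorem griff_contDiff_dBase : ContDiff ℝ ∞ (dBase : CE (κ ⊕ ι) → CE κ) :=
  (griff_dBaseL (κ := κ) (ι := ι)).contDiff

theorem isOpen_dBase_preimage (hO : IsOpen O) : IsOpen {p : CE (κ ⊕ ι) | dBase p ∈ O} :=
  hO.preimage (griff_dBaseL (κ := κ) (ι := ι)).continuous

theorem contDiffOn_dnorm (hO : IsOpen O) (hs : ∀ j k, ContDiffOn ℝ ∞ (fun x => H x j k) O)
    (hpos : ∀ x ∈ O, (H x).PosDef) : ContDiffOn ℝ ∞ (dnorm H) {p | dBase p ∈ O} := by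
  have hc : ∀ j k, ContDiffOn ℝ ∞ (fun p : CE (κ ⊕ ι) => H (dBase p) j k)
      {p : CE (κ ⊕ ι) | dBase p ∈ O} := by
    intro j k
    have h := ContDiffOn.comp (hs j k) (griff_contDiff_dBase (κ := κ) (ι := ι)).contDiffOn
      (s := {p : CE (κ ⊕ ι) | dBase p ∈ O}) (fun p hp => hp)
    simp only [Function.comp_def] at h
    exact h
  have hi := contDiffOn_matInv_of_posDef hc (fun p hp => hpos _ hp)
  exact contDiffOn_qf (H := fun p : CE (κ ⊕ ι) => ((H (dBase p))⁻¹)ᵀ) (v := dFib)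
    (fun j k => hi k j) (fun j => contDiff_coord.contDiffOn)

/-! ### the three contractions `A_X`, `B_X = A_Xᴴ`, `C_X` -/

/-- `A_X = ∑_l X_l ∂_l H`. -/
noncomputable def griff_A (H : CE κ → Matrix ι ι ℂ) (x : CE κ) (X : κ → ℂ) : Matrix ι ι ℂ :=
  ∑ l, X l • dzM l H x

/-- `B_X = ∑_l conj X_l ∂̄_l H`. -/
noncomputable def griff_B (H : CE κ → Matrix ι ι ℂ) (x : CE κ) (X : κ → ℂ) : Matrix ι ι ℂ :=
  ∑ l, star (X l) • dzbM l H x

/-- `C_X = ∑_{l m} X_l conj X_m ∂̄_m ∂_l H`. -/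
noncomputable def griff_C (H : CE κ → Matrix ι ι ℂ) (x : CE κ) (X : κ → ℂ) : Matrix ι ι ℂ :=
  ∑ l, ∑ m, (X l * star (X m)) • dzbM m (dzM l H) x

theorem griffM_eq (H : CE κ → Matrix ι ι ℂ) (x : CE κ) (X : κ → ℂ) :
    griffM H x X = - griff_C H x X + griff_B H x X * (H x)⁻¹ * griff_A H x X := by
  unfold griffM griff_A griff_B griff_C
  simp only [smul_add, smul_neg, Finset.sum_add_distrib, Finset.sum_neg_distrib]
  congr 1
  simp only [Finset.sum_mul, Finset.mul_sum, Matrix.smul_mul, Matrix.mul_smul, smul_smul]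

theorem griff_herm_nhds (hO : IsOpen O) (hpos : ∀ x ∈ O, (H x).PosDef) {x : CE κ} (hx : x ∈ O) :
    ∀ᶠ w in 𝓝 x, (H w).IsHermitian := by
  filter_upwards [hO.mem_nhds hx] with w hw
  exact (hpos w hw).isHermitian

theorem griff_A_conjTranspose {x : CE κ} (hh : ∀ᶠ w in 𝓝 x, (H w).IsHermitian) (X : κ → ℂ) :
    (griff_A H x X)ᴴ = griff_B H x X := by
  unfold griff_A griff_B
  rw [Matrix.conjTranspose_sum]
  refine Finset.sum_congr rfl fun l _ => ?_
  rw [Matrix.conjTranspose_smul, conjTranspose_dzM_of_isHermitian hh]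

theorem griff_fdM_eq (H : CE κ → Matrix ι ι ℂ) (x X : CE κ) :
    fdM H x X = griff_A H x X + griff_B H x X := by
  ext j k
  rw [fdM_apply, fderiv_eq_sum]
  simp only [griff_A, griff_B, Matrix.add_apply, Matrix.sum_apply, Matrix.smul_apply, dzM_apply,
    dzbM_apply, smul_eq_mul, Finset.sum_add_distrib, Complex.star_def]
  congr 1 <;> exact Finset.sum_congr rfl fun l _ => mul_comm _ _

theorem griff_A_I (H : CE κ → Matrix ι ι ℂ) (x X : CE κ) :
    griff_A H x (Complex.I • X : CE κ) = Complex.I • griff_A H x X := by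
  simp only [griff_A, PiLp.smul_apply, smul_eq_mul, Finset.smul_sum, smul_smul]

theorem griff_B_I (H : CE κ → Matrix ι ι ℂ) (x X : CE κ) :
    griff_B H x (Complex.I • X : CE κ) = (-Complex.I) • griff_B H x X := by
  simp only [griff_B, PiLp.smul_apply, smul_eq_mul, Finset.smul_sum, smul_smul, star_mul',
    Complex.star_def, Complex.conj_I]

/-- the entrywise second derivative `D²H(X, X)`. -/
noncomputable def griff_D2 (H : CE κ → Matrix ι ι ℂ) (x X : CE κ) : Matrix ι ι ℂ :=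
  Matrix.of fun j k => fderiv ℝ (fun w => fderiv ℝ (fun y => H y j k) w X) x X

theorem griff_D2_apply (H : CE κ → Matrix ι ι ℂ) (x X : CE κ) (j k : ι) :
    griff_D2 H x X j k = fderiv ℝ (fun w => fderiv ℝ (fun y => H y j k) w X) x X := rfl

theorem griff_snd_add {x : CE κ} (hH : ∀ j k, ContDiffAt ℝ 2 (fun w => H w j k) x) (X : CE κ) :
    griff_D2 H x X + griff_D2 H x (Complex.I • X) = (4 : ℝ) • griff_C H x X := by
  ext j k
  rw [Matrix.add_apply, griff_D2_apply, griff_D2_apply, lv_snd_add (hH j k) X]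
  simp only [griff_C, Matrix.smul_apply, Matrix.sum_apply, Complex.real_smul, smul_eq_mul,
    dzbM_apply]
  push_cast
  congr 1
  rw [Finset.sum_comm]
  refine Finset.sum_congr rfl fun l _ => Finset.sum_congr rfl fun m _ => ?_
  have : dzb m (fun w => dzM l H w j k) x = dzb m (dz l fun y => H y j k) x := rfl
  rw [this, Complex.star_def]
  ring

theorem griff_I_dJoin (X : CE κ) (W : CE ι) :
    Complex.I • dJoin X W = dJoin (Complex.I • X) (Complex.I • W) := by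
  ext a
  rcases a with a | a <;> simp [dJoin]

theorem griff_dnorm_line (H : CE κ → Matrix ι ι ℂ) (p : CE (κ ⊕ ι)) (X : CE κ) (W : CE ι)
    (s : ℝ) : dnorm H (p + s • dJoin X W)
      = qf (H (dBase p + s • X))⁻¹ (star (dFib p) + s • star (W : ι → ℂ)) := by
  have e1 : dBase (p + s • dJoin X W) = dBase p + s • X := by
    ext a; simp [dBase, dJoin]
  have e2 : star (dFib (p + s • dJoin X W)) = star (dFib p) + s • star (W : ι → ℂ) := by
    funext a; simp [dFib, dJoin]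
  rw [dnorm, qf_transpose, e1, e2]

theorem griff_snd (hO : IsOpen O) (hs : ∀ j k, ContDiffOn ℝ ∞ (fun x => H x j k) O)
    (hpos : ∀ x ∈ O, (H x).PosDef) {p : CE (κ ⊕ ι)} (hp : dBase p ∈ O) (X : CE κ) (W : CE ι) :
    deriv (deriv fun s : ℝ => dnorm H (p + s • dJoin X W)) 0
      = 2 * qf (H (dBase p))⁻¹ (star (W : ι → ℂ)
            - fdM H (dBase p) X *ᵥ ((H (dBase p))⁻¹ *ᵥ star (dFib p)))
        - qf (griff_D2 H (dBase p) X) ((H (dBase p))⁻¹ *ᵥ star (dFib p)) := by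
  simp only [griff_dnorm_line]
  set x := dBase p with hx
  have hline : ∀ s : ℝ, HasDerivAt (fun s : ℝ => x + s • X) X s := fun s => by
    simpa using ((hasDerivAt_id s).smul_const X).const_add x
  have hmem : ∀ᶠ s in 𝓝 (0 : ℝ), x + s • X ∈ O := by
    have hc : ContinuousAt (fun s : ℝ => x + s • X) 0 := (hline 0).continuousAt
    apply hc.eventually
    show ∀ᶠ y in 𝓝 (x + (0 : ℝ) • X), y ∈ O
    rw [zero_smul, add_zero]
    exact hO.mem_nhds hp
  have hcd : ∀ y ∈ O, ∀ j k, ContDiffAt ℝ ∞ (fun w => H w j k) y := fun y hy j k =>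
    (hs j k).contDiffAt (hO.mem_nhds hy)
  have h1 : ∀ᶠ s in 𝓝 (0 : ℝ), ∀ j k,
      HasDerivAt (fun r : ℝ => H (x + r • X) j k) (fdM H (x + s • X) X j k) s := by
    filter_upwards [hmem] with s hs' j k
    have hd : DifferentiableAt ℝ (fun w => H w j k) (x + s • X) :=
      (hcd _ hs' j k).differentiableAt (by simp)
    exact hd.hasFDerivAt.comp_hasDerivAt s (hline s)
  have h2 : ∀ j k, HasDerivAt (fun r : ℝ => fdM H (x + r • X) X j k)
      (fderiv ℝ (fun w => fderiv ℝ (fun y => H y j k) w X) x X) 0 := by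
    intro j k
    have hd : DifferentiableAt ℝ (fun w => fderiv ℝ (fun y => H y j k) w X) (x + (0 : ℝ) • X) := by
      rw [zero_smul, add_zero]
      have h3 : DifferentiableAt ℝ (fderiv ℝ (fun y => H y j k)) x :=
        ((hcd x hp j k).fderiv_right (m := 1) (by
          exact WithTop.coe_le_coe.2 le_top)).differentiableAt (by norm_num)
      exact h3.clm_apply (differentiableAt_const X)
    have := hd.hasFDerivAt.comp_hasDerivAt 0 (hline 0)
    rw [zero_smul, add_zero] at this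
    exact this
  have hp' : ∀ᶠ s in 𝓝 (0 : ℝ), (H (x + s • X)).PosDef := by
    filter_upwards [hmem] with s hs'
    exact hpos _ hs'
  have hh : (fdM H (x + (0 : ℝ) • X) X).IsHermitian := by
    rw [zero_smul, add_zero]
    exact fdM_isHermitian (griff_herm_nhds hO hpos hp) X
  have := griff_line (Hs := fun s : ℝ => H (x + s • X)) (H1 := fun s : ℝ => fdM H (x + s • X) X)
    (H2 := griff_D2 H x X) h1 h2 hp' hh
    (star (dFib p)) (star (W : ι → ℂ))
  simpa only [zero_smul, add_zero] using this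

theorem griff_contDiffAt_dnorm (hO : IsOpen O) (hs : ∀ j k, ContDiffOn ℝ ∞ (fun x => H x j k) O)
    (hpos : ∀ x ∈ O, (H x).PosDef) {p : CE (κ ⊕ ι)} (hp : dBase p ∈ O) :
    ContDiffAt ℝ 2 (dnorm H) p :=
  ((contDiffOn_dnorm hO hs hpos).contDiffAt ((isOpen_dBase_preimage hO).mem_nhds hp)).of_le
    lv_two_le_infty

/-- explicit form of `qf_levi_dnorm`. -/
theorem griff_qf_levi (hO : IsOpen O) (hs : ∀ j k, ContDiffOn ℝ ∞ (fun x => H x j k) O)
    (hpos : ∀ x ∈ O, (H x).PosDef) {p : CE (κ ⊕ ι)} (hp : dBase p ∈ O) (X : CE κ) (W : CE ι) :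
    qf (levi (dnorm H) p) (dJoin X W) =
      qf (H (dBase p))⁻¹ (star (W : ι → ℂ)
          - griff_B H (dBase p) X *ᵥ ((H (dBase p))⁻¹ *ᵥ star (dFib p)))
        + qf (griffM H (dBase p) X) ((H (dBase p))⁻¹ *ᵥ star (dFib p)) := by
  have hf := griff_contDiffAt_dnorm hO hs hpos hp
  have h0 := qf_levi_line hf (dJoin X W)
  rw [griff_I_dJoin, griff_snd hO hs hpos hp X W,
    griff_snd hO hs hpos hp (Complex.I • X) (Complex.I • W)] at h0
  refine h0.trans ?_
  have hG : ((H (dBase p))⁻¹).IsHermitian := (hpos _ hp).inv.isHermitian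
  have hAB : (griff_A H (dBase p) X)ᴴ = griff_B H (dBase p) X :=
    griff_A_conjTranspose (griff_herm_nhds hO hpos hp) X
  have hcd : ∀ j k, ContDiffAt ℝ 2 (fun w => H w j k) (dBase p) := fun j k =>
    ((hs j k).contDiffAt (hO.mem_nhds hp)).of_le lv_two_le_infty
  generalize (H (dBase p))⁻¹ *ᵥ star (dFib p) = u at *
  generalize hGG : (H (dBase p))⁻¹ = G at *
  have e1 : star (W : ι → ℂ) - fdM H (dBase p) X *ᵥ u
      = (star (W : ι → ℂ) - griff_B H (dBase p) X *ᵥ u) - griff_A H (dBase p) X *ᵥ u := by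
    rw [griff_fdM_eq, Matrix.add_mulVec]; abel
  have e2 : star ((Complex.I • W : CE ι) : ι → ℂ) - fdM H (dBase p) (Complex.I • X) *ᵥ u
      = (-Complex.I) • ((star (W : ι → ℂ) - griff_B H (dBase p) X *ᵥ u)
          + griff_A H (dBase p) X *ᵥ u) := by
    rw [griff_fdM_eq, griff_A_I, griff_B_I, Matrix.add_mulVec, Matrix.smul_mulVec,
      Matrix.smul_mulVec]
    have : star ((Complex.I • W : CE ι) : ι → ℂ) = (-Complex.I) • star (W : ι → ℂ) := by
      funext j; simp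
    rw [this]
    module
  have e3 : qf (griff_D2 H (dBase p) X) u + qf (griff_D2 H (dBase p) (Complex.I • X)) u
      = 4 * qf (griff_C H (dBase p) X) u := by
    rw [← qf_add, griff_snd_add hcd, qf_real_smul]
  have e4 := griff_parallelogram hG (star (W : ι → ℂ) - griff_B H (dBase p) X *ᵥ u)
    (griff_A H (dBase p) X *ᵥ u)
  have e5 : ‖-Complex.I‖ = 1 := by simp
  rw [e1, e2, qf_smul_vec, e5, griffM_eq, qf_add, qf_neg, ← hAB, hGG, qf_conj, hAB]
  linarith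

theorem griff_C_isHermitian {x : CE κ} (hH : ∀ j k, ContDiffAt ℝ 2 (fun w => H w j k) x)
    (hh : ∀ᶠ w in 𝓝 x, (H w).IsHermitian) (X : κ → ℂ) : (griff_C H x X).IsHermitian := by
  have key : ∀ l m, (dzbM m (dzM l H) x)ᴴ = dzbM l (dzM m H) x := by
    intro l m
    rw [← dzM_conjTranspose, ← dzM_dzbM_comm hH]
    apply dzM_congr
    filter_upwards [hh.eventually_nhds] with w hw
    exact conjTranspose_dzM_of_isHermitian hw
  unfold Matrix.IsHermitian griff_C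
  simp only [Matrix.conjTranspose_sum, Matrix.conjTranspose_smul, key]
  rw [Finset.sum_comm]
  refine Finset.sum_congr rfl fun l _ => Finset.sum_congr rfl fun m _ => ?_
  congr 1
  simp [mul_comm]

theorem griffM_isHermitian (hO : IsOpen O) (hs : ∀ j k, ContDiffOn ℝ ∞ (fun x => H x j k) O)
    (hpos : ∀ x ∈ O, (H x).PosDef) {x : CE κ} (hx : x ∈ O) (X : κ → ℂ) :
    (griffM H x X).IsHermitian := by
  have hh := griff_herm_nhds hO hpos hx
  have hcd : ∀ j k, ContDiffAt ℝ 2 (fun w => H w j k) x := fun j k =>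
    ((hs j k).contDiffAt (hO.mem_nhds hx)).of_le lv_two_le_infty
  rw [griffM_eq, ← griff_A_conjTranspose hh]
  exact (griff_C_isHermitian hcd hh X).neg.add
    (isHermitian_conj (hpos x hx).inv.isHermitian _)

/-- **Levi form of the dual norm = square + Griffiths curvature.** -/
theorem qf_levi_dnorm (hO : IsOpen O) (hs : ∀ j k, ContDiffOn ℝ ∞ (fun x => H x j k) O)
    (hpos : ∀ x ∈ O, (H x).PosDef) {p : CE (κ ⊕ ι)} (hp : dBase p ∈ O) (X : CE κ) :
    ∃ Γ : CE ι, ∀ W : CE ι,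
      qf (levi (dnorm H) p) (dJoin X W) =
        qf ((H (dBase p))⁻¹)ᵀ (W - Γ) +
          qf (griffM H (dBase p) X) ((H (dBase p))⁻¹ *ᵥ star (dFib p)) := by
  refine ⟨WithLp.toLp 2 (star (griff_B H (dBase p) X *ᵥ ((H (dBase p))⁻¹ *ᵥ star (dFib p)))),
    fun W => ?_⟩
  rw [griff_qf_levi hO hs hpos hp X W, qf_transpose]
  congr 2
  funext j
  simp

/-- plurisubharmonic dual norm ⟹ Griffiths nonnegative. -/
theorem griffM_posSemidef_of_levi (hO : IsOpen O)
    (hs : ∀ j k, ContDiffOn ℝ ∞ (fun x => H x j k) O) (hpos : ∀ x ∈ O, (H x).PosDef) {x : CE κ}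
    (hx : x ∈ O) (h : ∀ p : CE (κ ⊕ ι), dBase p = x → (levi (dnorm H) p).PosSemidef)
    (X : κ → ℂ) : (griffM H x X).PosSemidef := by
  rw [posSemidef_iff_qf (griffM_isHermitian hO hs hpos hx X)]
  intro u
  have hb : dBase (dJoin x (WithLp.toLp 2 (star (H x *ᵥ u)))) = x := dBase_dJoin _ _
  have h1 := griff_qf_levi hO hs hpos (p := dJoin x (WithLp.toLp 2 (star (H x *ᵥ u))))
    (by rw [hb]; exact hx) (WithLp.toLp 2 X) (WithLp.toLp 2 (star (griff_B H x X *ᵥ u)))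
  have h2 := qf_nonneg (h _ hb)
    (dJoin (WithLp.toLp 2 X) (WithLp.toLp 2 (star (griff_B H x X *ᵥ u))))
  rw [h1, hb, dFib_dJoin] at h2
  have e : (H x)⁻¹ *ᵥ (H x *ᵥ u) = u := by
    rw [Matrix.mulVec_mulVec, inv_mul_cancel_of_posDef (hpos x hx), Matrix.one_mulVec]
  simp only [star_star, e, sub_self, qf_zero_vec, zero_add] at h2
  exact h2

/-- Griffiths nonnegative ⟹ plurisubharmonic dual norm. -/
theorem levi_dnorm_posSemidef (hO : IsOpen O) (hs : ∀ j k, ContDiffOn ℝ ∞ (fun x => H x j k) O)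
    (hpos : ∀ x ∈ O, (H x).PosDef) {p : CE (κ ⊕ ι)} (hp : dBase p ∈ O)
    (h : ∀ X : κ → ℂ, (griffM H (dBase p) X).PosSemidef) : (levi (dnorm H) p).PosSemidef := by
  rw [levi_posSemidef_iff (griff_contDiffAt_dnorm hO hs hpos hp)]
  intro v
  have e : v = dJoin (WithLp.toLp 2 fun a => v (Sum.inl a)) (WithLp.toLp 2 fun a => v (Sum.inr a)) := by
    funext a
    rcases a with a | a <;> simp [dJoin]
  rw [e, griff_qf_levi hO hs hpos hp]
  exact add_nonneg (qf_nonneg (hpos _ hp).inv.posSemidef _) (qf_nonneg (h _) _)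

/-- the fibre trace of the curvature is the Chern-Ricci form `- ∂∂̄ log det H`. -/
theorem trace_inv_mul_griffM (hO : IsOpen O) (hs : ∀ j k, ContDiffOn ℝ ∞ (fun x => H x j k) O)
    (hpos : ∀ x ∈ O, (H x).PosDef) {x : CE κ} (hx : x ∈ O) (X : κ → ℂ) :
    ((H x)⁻¹ * griffM H x X).trace.re = qf (- levi (fun y => Real.log (H y).det.re) x) X := by
  rw [qf_eq_sum]
  congr 1
  simp only [griffM, Finset.mul_sum, Matrix.trace_sum, Matrix.mul_smul,
    Matrix.trace_smul, Matrix.mul_add, Matrix.trace_add, Matrix.mul_neg, Matrix.trace_neg,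
    Matrix.neg_apply, levi_logDet_on hO hs hpos hx, smul_eq_mul, ← Matrix.mul_assoc]
  rw [Finset.sum_comm]
  refine Finset.sum_congr rfl fun l _ => Finset.sum_congr rfl fun m _ => ?_
  rw [Complex.star_def]
  ring

theorem griffM_congr {H' : CE κ → Matrix ι ι ℂ} {x : CE κ} (h : ∀ᶠ y in 𝓝 x, H y = H' y)
    (X : κ → ℂ) : griffM H x X = griffM H' x X := by
  unfold griffM
  refine Finset.sum_congr rfl fun l _ => Finset.sum_congr rfl fun m _ => ?_
  rw [h.self_of_nhds, dzM_congr h, dzbM_congr h,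
    dzbM_congr (h.eventually_nhds.mono fun w hw => dzM_congr hw)]

theorem griffM_apply (H : CE κ → Matrix ι ι ℂ) (x : CE κ) (X : κ → ℂ) (k j : ι) :
    griffM H x X k j = ∑ l, ∑ m, X l * star (X m) *
      (- dzb m (fun w => dz l (fun y => H y k j) w) x
        + ∑ p, ∑ q, (H x)⁻¹ p q * dz l (fun y => H y q j) x * dzb m (fun y => H y k p) x) := by
  simp only [griffM, Matrix.sum_apply, Matrix.smul_apply, Matrix.add_apply, Matrix.neg_apply,
    smul_eq_mul, Matrix.mul_apply, dzM_apply, dzbM_apply, Finset.sum_mul]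
  refine Finset.sum_congr rfl fun l _ => Finset.sum_congr rfl fun m _ => ?_
  congr 2
  rw [Finset.sum_comm]
  refine Finset.sum_congr rfl fun p _ => Finset.sum_congr rfl fun q _ => ?_
  ring

end thms

section bisec

variable {V : Type} [NormedAddCommGroup V] [NormedSpace ℝ V]
variable {ι : Type} [Fintype ι] [DecidableEq ι]

/-- the bisectional curvature numerator of `Core/Basic.lean` is the Griffiths form of the tangent metric. -/
theorem bisec_eq_griffM (h : HFam V ι) (Φ : CE ι → V) (z : CE ι) (u X : ι → ℂ) :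
    bisec h Φ z u X = qf (griffM (h Φ) z X) u := by
  rw [qf_eq_sum, bisec]
  congr 1
  rw [Finset.sum_comm]
  refine Finset.sum_congr rfl fun k _ => Finset.sum_congr rfl fun j _ => ?_
  rw [griffM_apply, Finset.mul_sum, Finset.sum_mul]
  refine Finset.sum_congr rfl fun l _ => ?_
  rw [Finset.mul_sum, Finset.sum_mul]
  refine Finset.sum_congr rfl fun m _ => ?_
  rw [Rm, Complex.star_def]
  ring

end bisec

end Claimed.Agent.R316
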