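import Claimed.Agent.R316.Pack019
import Claimed.Agent.R316.CM.FormsST

/-!
# Row 316, BP-S7-1a, leaf L-S7-1a-3: `FlowData` in a chart (~800 lines)

PROVED (helper11), no `sorry`: almost everything is a corollary of Part 4 of `CM/FormsST.lean` (`flowMetric`).  All statements of `CW/`, `CM/`, `S7/H1/Param.lean` may be used.
Consumers: `S7/H1/Main.lean`, `S6/GFlow.lean`, `S6/GMain.lean`, Sections 3, 7.

`D.h t Φ z = g Φ z - t • ricF g Φ z + levi (D.U t ∘ Φ) z` (`FlowData.h`, `flowMetric`, `ddc`).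

RECIPES.
* `fc_h_zero`: `D.U 0 ∘ Φ = 0` on the open `U` (`U_zero`, `CMfd.mem_carrier`), `levi_eqOn`/`levi_congr`, `levi_const`.
* `fc_contDiffOn_h`: `IsHForm.smooth` for `g` and for `ricF g` (`isHForm_ricF`) composed with `Prod.snd`; `contDiffOn_levi_param (uniqueDiffOn_Ici 0)` for `F q = D.U q.1 (Φ q.2)` (`D.U_smooth Φ U hΦ`).
* `fc_contDiffOn_logdet`: `contDiffOn_logDet_of_posDef` (CW-3, within arbitrary sets).  `fc_contDiffOn_ric`: `D.ric t Φ z = - levi (fun w => log det (D.h t Φ w)) z`, `contDiffOn_levi_param`.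
* `fc_P_chart`: `D.P_eq`, `detRatio_eq'` (CM-2), `Real.log_div`.
* `fc_dt_h`: derivative of `s ↦ levi (fun w => D.U s (Φ w)) z j k` by `hasDerivAt_levi_param` on `Ioi 0 ×ˢ U`; `deriv (fun s => D.U s (Φ w)) t = D.P t (Φ w)` (`D.U_t`, `HasDerivWithinAt.hasDerivAt (Ici_mem_nhds ht)`);
  `levi (fun w => D.P t (Φ w)) z = levi (log det h_t) z - levi (log det g) z = - D.ric t Φ z + ricF g Φ z` (`fc_P_chart` on the open `U`, `levi_congr`, `levi_sub`).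
* `fc_dt_ric`: `hasDerivAt_param` for `fc_contDiffOn_ric` restricted to `Ioi 0 ×ˢ U`; `FlowData.ricDt` is this `deriv` by definition.
* `fc_R_chart`: `D.R_eq`, `scalCurv_eq` (CM-2).
* `fc_jointNorm_contDiffOn`: compose the entries of `(D.h t Φ z)⁻¹` (`contDiffOn_matInv_of_posDef`) with the smooth map `p ↦ (exp (2 Re (pLog p)), pBase p)` into `Ioi 0 ×ˢ U`; `contDiffOn_qf`.
-/

set_option autoImplicit false
set_option linter.unusedSectionVars false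
open scoped ContDiff ComplexOrder Topology Matrix

namespace Claimed.Agent.R316

variable {V : Type} [NormedAddCommGroup V] [NormedSpace ℝ V] [MeasurableSpace V] [BorelSpace V]
variable {n : ℕ} {𝓜 : CMfd V (Fin n)} {g : HFam V (Fin n)} {o : V}
variable (D : FlowData 𝓜 g o)
variable {Φ : CE (Fin n) → V} {U : Set (CE (Fin n))} {t : ℝ} {z : CE (Fin n)}

theorem fc_metric (ht : 0 ≤ t) : IsMetric 𝓜 (D.h t) := (D.kahler t ht).toIsMetric

theorem fc_posDef (hΦ : 𝓜.IsHol Φ U) (ht : 0 ≤ t) (hz : z ∈ U) : (D.h t Φ z).PosDef :=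
  (fc_metric D ht).posDef hΦ z hz

theorem fc_h_zero (hΦ : 𝓜.IsHol Φ U) (hz : z ∈ U) : D.h 0 Φ z = g Φ z :=
  flowMetric_zero D.U_zero hΦ hz

theorem fc_metricST (hg : IsMetric 𝓜 g) : IsMetricST 𝓜 (Set.Ici 0) D.h :=
  isMetricST_flowMetric (isTimeDom_Ici 0) hg D.U_smooth fun _ ht => fc_metric D ht

theorem fc_contDiffOn_h (hg : IsMetric 𝓜 g) (hΦ : 𝓜.IsHol Φ U) (j k : Fin n) :
    ContDiffOn ℝ ∞ (fun q : ℝ × CE (Fin n) => D.h q.1 Φ q.2 j k) (Set.Ici 0 ×ˢ U) :=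
  (fc_metricST D hg).smooth Φ U hΦ j k

theorem fc_contDiffOn_logdet (hg : IsMetric 𝓜 g) (hΦ : 𝓜.IsHol Φ U) :
    ContDiffOn ℝ ∞ (fun q : ℝ × CE (Fin n) => Real.log (D.h q.1 Φ q.2).det.re)
      (Set.Ici 0 ×ˢ U) :=
  contDiffOn_logDet_of_posDef (fun j k => fc_contDiffOn_h D hg hΦ j k)
    fun _ hq => fc_posDef D hΦ hq.1 hq.2

theorem fc_contDiffOn_ric (hg : IsMetric 𝓜 g) (hΦ : 𝓜.IsHol Φ U) (j k : Fin n) :
    ContDiffOn ℝ ∞ (fun q : ℝ × CE (Fin n) => D.ric q.1 Φ q.2 j k) (Set.Ici 0 ×ˢ U) :=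
  (isHFormST_ricF (isTimeDom_Ici 0) (fc_metricST D hg)).smooth Φ U hΦ j k

theorem fc_ric_isHForm (ht : 0 ≤ t) : IsHForm 𝓜 (D.ric t) := isHForm_ricF (fc_metric D ht)

theorem fc_ric_zero (hΦ : 𝓜.IsHol Φ U) (hz : z ∈ U) : D.ric 0 Φ z = ricF g Φ z := by
  show - levi (fun w => Real.log (D.h 0 Φ w).det.re) z = - levi (fun w => Real.log (g Φ w).det.re) z
  congr 1
  apply levi_congr
  filter_upwards [(CMfd.isOpen_dom hΦ).mem_nhds hz] with w hw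
  rw [fc_h_zero D hΦ hw]

theorem fc_P_chart (hg : IsMetric 𝓜 g) (hΦ : 𝓜.IsHol Φ U) (ht : 0 ≤ t) (hz : z ∈ U) :
    D.P t (Φ z) = Real.log (D.h t Φ z).det.re - Real.log (g Φ z).det.re := by
  rw [D.P_eq t ht _ (CMfd.mem_carrier hΦ hz), show flowMetric g D.U t = D.h t from rfl,
    detRatio_eq' (fc_metric D ht).toIsHForm hg hΦ hz,
    Real.log_div (posDef_det_re_pos (fc_posDef D hΦ ht hz)).ne'
      (posDef_det_re_pos (hg.posDef hΦ z hz)).ne']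

theorem fc_timeDeriv (hg : IsMetric 𝓜 g) :
    IsTimeDeriv 𝓜 (Set.Ici 0) D.h (fun t Φ z => - D.ric t Φ z) :=
  isTimeDeriv_flowMetric_ricF (isTimeDom_Ici 0) hg D.U_smooth (fun t ht x hx => D.U_t t ht x hx)
    (fun _ ht => fc_metric D ht) (fun t ht x hx => D.P_eq t ht x hx)

/-- **the flow equation** `∂_t h = - Ric h_t` in fixed holomorphic coordinates. -/
theorem fc_dt_h (hg : IsMetric 𝓜 g) (hΦ : 𝓜.IsHol Φ U) (ht : 0 < t) (hz : z ∈ U) (j k : Fin n) :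
    HasDerivAt (fun s => D.h s Φ z j k) (- D.ric t Φ z j k) t :=
  (fc_timeDeriv D hg Φ U hΦ z hz t ht.le j k).hasDerivAt (Ici_mem_nhds ht)

theorem fc_dt_ric (hg : IsMetric 𝓜 g) (hΦ : 𝓜.IsHol Φ U) (ht : 0 < t) (hz : z ∈ U)
    (j k : Fin n) : HasDerivAt (fun s => D.ric s Φ z j k) (D.ricDt t Φ z j k) t := by
  have h1 : ContDiffOn ℝ ∞ (fun s => D.ric s Φ z j k) (Set.Ici 0) :=
    contDiffOn_timeline (F := fun q : ℝ × CE (Fin n) => D.ric q.1 Φ q.2 j k)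
      (fc_contDiffOn_ric D hg hΦ j k) hz
  exact ((h1.contDiffAt (Ici_mem_nhds ht)).differentiableAt (by simp)).hasDerivAt

theorem fc_R_chart (hΦ : 𝓜.IsHol Φ U) (ht : 0 ≤ t) (hz : z ∈ U) :
    D.R t (Φ z) = Rc (fun s => D.h s Φ) (fun s => D.ric s Φ) t z := by
  rw [D.R_eq t ht _ (CMfd.mem_carrier hΦ hz)]
  exact scalCurv_eq (fc_metric D ht) hΦ hz

/-- `FlowData` in a chart is a `ChartFlow`. -/
theorem fc_chartFlow (hg : IsMetric 𝓜 g) (hΦ : 𝓜.IsHol Φ U) :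
    ChartFlow U (fun s => D.h s Φ) (fun s => D.ric s Φ) (fun s => D.ricDt s Φ) where
  isOpen := CMfd.isOpen_dom hΦ
  smooth_h j k := (fc_contDiffOn_h D hg hΦ j k).mono
    (Set.prod_mono Set.Ioi_subset_Ici_self subset_rfl)
  smooth_A j k := (fc_contDiffOn_ric D hg hΦ j k).mono
    (Set.prod_mono Set.Ioi_subset_Ici_self subset_rfl)
  pos _ ht _ hz := fc_posDef D hΦ ht.le hz
  dt_h _ ht _ hz j k := fc_dt_h D hg hΦ ht hz j k
  dt_A _ ht _ hz j k := fc_dt_ric D hg hΦ ht hz j k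
  ric _ _ _ _ := rfl

theorem fc_contDiff_pBase : ContDiff ℝ ∞ (pBase : CE ((Fin n ⊕ Fin n) ⊕ Unit) → CE (Fin n)) := by
  unfold pBase
  exact (contDiff_piLp 2).2 fun j => contDiff_coord

theorem fc_isOpen_pBase (hU : IsOpen U) :
    IsOpen {p : CE ((Fin n ⊕ Fin n) ⊕ Unit) | pBase p ∈ U} :=
  hU.preimage fc_contDiff_pBase.continuous

theorem fc_contDiff_pLog_re : ContDiff ℝ ∞ (fun p : CE ((Fin n ⊕ Fin n) ⊕ Unit) => (pLog p).re) :=
  Complex.reCLM.contDiff.comp (f := pLog) contDiff_coord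

theorem fc_contDiff_exp_pLog : ContDiff ℝ ∞ (fun p : CE ((Fin n ⊕ Fin n) ⊕ Unit) => Real.exp (2 * (pLog p).re)) :=
  Real.contDiff_exp.comp (contDiff_const.mul fc_contDiff_pLog_re)

theorem fc_contDiff_logMap : ContDiff ℝ ∞ (fun p : CE ((Fin n ⊕ Fin n) ⊕ Unit) =>
      (Real.exp (2 * (pLog p).re), pBase p)) := fc_contDiff_exp_pLog.prodMk fc_contDiff_pBase

theorem fc_mapsTo_logMap : Set.MapsTo (fun p : CE ((Fin n ⊕ Fin n) ⊕ Unit) =>
      (Real.exp (2 * (pLog p).re), pBase p)) {p | pBase p ∈ U} (Set.Ici 0 ×ˢ U) :=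
    fun _ hp => ⟨(Real.exp_pos _).le, hp⟩


theorem fc_contDiffOn_inv (hg : IsMetric 𝓜 g) (hΦ : 𝓜.IsHol Φ U) (j k : Fin n) :
    ContDiffOn ℝ ∞ (fun q : ℝ × CE (Fin n) => (D.h q.1 Φ q.2)⁻¹ j k) (Set.Ici 0 ×ˢ U) :=
  contDiffOn_matInv_of_posDef (H := fun q : ℝ × CE (Fin n) => D.h q.1 Φ q.2)
    (fun j k => fc_contDiffOn_h D hg hΦ j k) (fun _ hq => fc_posDef D hΦ hq.1 hq.2) j k

theorem fc_contDiffOn_inv_logMap (hg : IsMetric 𝓜 g) (hΦ : 𝓜.IsHol Φ U) (j k : Fin n) :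
    ContDiffOn ℝ ∞ (fun p : CE ((Fin n ⊕ Fin n) ⊕ Unit) =>
      (D.h (Real.exp (2 * (pLog p).re)) Φ (pBase p))⁻¹ k j) {p | pBase p ∈ U} := by
  have h := ContDiffOn.comp (fc_contDiffOn_inv D hg hΦ k j) (fc_contDiff_logMap (n := n)).contDiffOn (fc_mapsTo_logMap (U := U))
  simp only [Function.comp_def] at h
  exact h

theorem fc_jointNorm_contDiffOn (hg : IsMetric 𝓜 g) (hΦ : 𝓜.IsHol Φ U) :
    ContDiffOn ℝ ∞ (jointNorm D.h Φ) {p | pBase p ∈ U} :=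
  contDiffOn_qf
    (H := fun p : CE ((Fin n ⊕ Fin n) ⊕ Unit) =>
      ((D.h (Real.exp (2 * (pLog p).re)) Φ (pBase p))⁻¹)ᵀ) (v := pFib)
    (fc_contDiffOn_inv_logMap D hg hΦ)
    fun j => (contDiff_coord (k := Sum.inl (Sum.inr j))).contDiffOn

/-- `ρ_t = R`. -/
theorem fc_dt_rho {x : V} (hx : x ∈ 𝓜.carrier) (ht : 0 ≤ t) :
    HasDerivWithinAt (fun s => D.rho s x) (D.R t x) (Set.Ici 0) t := by
  have := (D.P_t t ht x hx).neg
  rwa [neg_neg] at this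

theorem fc_R_continuousOn {x : V} (hx : x ∈ 𝓜.carrier) :
    ContinuousOn (fun s => D.R s x) (Set.Ici 0) := by
  have h1 : ContDiffOn ℝ ∞ (fun s => D.R s (𝓜.pΦ x (𝓜.co x))) (Set.Ici 0) :=
    contDiffOn_timeline (F := fun q : ℝ × CE (Fin n) => D.R q.1 (𝓜.pΦ x q.2))
      (D.R_smooth _ _ (𝓜.isHol_pΦ hx)) (𝓜.co_mem hx)
  rw [𝓜.pΦ_co hx] at h1
  exact h1.continuousOn

end Claimed.Agent.R316
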