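import Claimed.Agent.R316.Pack019

/-!
# Row 316, BP-S7-1a, leaf L-S7-1a-7: propagation in time at one point (~800 lines; matrices depending on one real variable)

PROVED (helper11), no `sorry`, and NO ODE: `propagate` follows from the monotonicity of `φ_w(t) = t N'(t) / N(t)`, `N = qf (h t)⁻¹ w` (`ck_phi_mono`: matrix Harnack + Cauchy-Schwarz), because `t A ≥ λ h` at time `t` says `φ_w(t) ≥ λ` for all `w ≠ 0`.  (The recipe below with the moving frame is the original plan.)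

* `hasDerivAt_qf`: product rule for `s ↦ (star (y s) ⬝ᵥ M s *ᵥ y s).re` with `M s` Hermitian at `s = t`: derivative `qf M' y + 2 Re (yᴴ M y')`.
* `propagate` (the moving frame of the paper, `E_t = ½ A^# E`, run BACKWARDS from an arbitrary vector at `t₁`).  `S s = s A s - λ h s`.  Fix `v`.  On `[t₀, t₁]` the coefficient `s ↦ ½ (h s)⁻¹ A s` is continuous (entries differentiable, `hasDerivAt_matInv`);
  `ODE.exists_linear_sol` on `E = CE ι` (real Banach space; the operator is `y ↦ toLp (½ (h s)⁻¹ * A s *ᵥ y)`, e.g. `Matrix.toEuclideanCLM`/`Matrix.toLin'` + `LinearMap.toContinuousLinearMap`, restricted to `ℝ`) gives `y` with `y t₁ = v`, `y' = ½ h⁻¹ A y`.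
  `φ s = qf (S s) (y s)`.  `S' = A + s A_t + λ A`, `2 Re (yᴴ S y') = Re (yᴴ (s A - λ h) h⁻¹ A y) = s yᴴ A h⁻¹ A y - λ yᴴ A y`; hence `φ' = s qf (harM …) y ≥ 0`;
  `φ` is monotone on `[t₀, t₁]` (`monotoneOn_of_deriv_nonneg` or `image_le_of_deriv_right_…`), `0 ≤ φ t₀ ≤ φ t₁ = qf (S t₁) v`.  `posSemidef_iff_qf`.
* `qf_h_antitone`: `d/ds qf (h s) v = - qf (A s) v ≤ 0` (`antitoneOn_of_deriv_nonpos` on the convex `Ioi 0`).
* `decay`: `ψ s = s^a qf (h s) v`, `ψ' = s^{a-1} (a qf h v - s qf A v) ≤ 0` on `[1, ∞)` (`Real.hasDerivAt_rpow_const`).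
* `posDef_ge_smul`: `exists_pos_smul_one_le`, `exists_le_smul_one` (CW-4).
* `mul_monotone_of_harnack`: `(s R)' = s (R' + R / s) ≥ 0`.
* `basepoint_bound`: for `t ≥ 1` the function `G v = ρ v - t R t log v` is monotone on `[t, 2 t]` (`G' = R v - t R t / v ≥ 0`), so `t R t log 2 ≤ ρ (2 t) - ρ t ≤ C (1 + 2 t)`, `R t ≤ 3 C / log 2`; on `[0, 1]` a continuous function is bounded (`IsCompact.exists_bound_of_continuousOn`).
-/

set_option autoImplicit false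
set_option linter.unusedSectionVars false
open scoped ContDiff ComplexOrder Topology Matrix

namespace Claimed.Agent.R316

variable {ι : Type} [Fintype ι] [DecidableEq ι]

theorem pf_hasDerivAt_mulVec {M : ℝ → Matrix ι ι ℂ} {M' : Matrix ι ι ℂ} {y : ℝ → ι → ℂ}
    {y' : ι → ℂ} {t : ℝ} (hM : ∀ j k, HasDerivAt (fun s => M s j k) (M' j k) t)
    (hy : ∀ j, HasDerivAt (fun s => y s j) (y' j) t) (j : ι) :
    HasDerivAt (fun s => (M s *ᵥ y s) j) ((M' *ᵥ y t) j + (M t *ᵥ y') j) t := by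
  have h1 : HasDerivAt (fun s => ∑ k, M s j k * y s k)
      (∑ k, (M' j k * y t k + M t j k * y' k)) t :=
    HasDerivAt.fun_sum fun k _ => (hM j k).mul (hy k)
  rw [Finset.sum_add_distrib] at h1
  exact h1

theorem pf_hasDerivAt_dot {M : ℝ → Matrix ι ι ℂ} {M' : Matrix ι ι ℂ} {y : ℝ → ι → ℂ}
    {y' : ι → ℂ} {t : ℝ} (hM : ∀ j k, HasDerivAt (fun s => M s j k) (M' j k) t)
    (hy : ∀ j, HasDerivAt (fun s => y s j) (y' j) t) :
    HasDerivAt (fun s => star (y s) ⬝ᵥ (M s *ᵥ y s))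
      (star y' ⬝ᵥ (M t *ᵥ y t) + (star (y t) ⬝ᵥ (M' *ᵥ y t) + star (y t) ⬝ᵥ (M t *ᵥ y'))) t := by
  have h1 : HasDerivAt (fun s => ∑ j, star (y s j) * (M s *ᵥ y s) j)
      (∑ j, (star (y' j) * (M t *ᵥ y t) j + star (y t j) * ((M' *ᵥ y t) j + (M t *ᵥ y') j))) t :=
    HasDerivAt.fun_sum fun j _ => ((hy j).star).mul (pf_hasDerivAt_mulVec hM hy j)
  simp only [mul_add, Finset.sum_add_distrib] at h1
  exact h1

theorem hasDerivAt_qf {M : ℝ → Matrix ι ι ℂ} {M' : Matrix ι ι ℂ} {y : ℝ → ι → ℂ} {y' : ι → ℂ}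
    {t : ℝ} (hM : ∀ j k, HasDerivAt (fun s => M s j k) (M' j k) t) (hherm : (M t).IsHermitian)
    (hy : ∀ j, HasDerivAt (fun s => y s j) (y' j) t) :
    HasDerivAt (fun s => qf (M s) (y s))
      (qf M' (y t) + 2 * (star (y t) ⬝ᵥ (M t *ᵥ y')).re) t := by
  have h1 := Complex.reCLM.hasFDerivAt.comp_hasDerivAt t (pf_hasDerivAt_dot hM hy)
  have e : (star y' ⬝ᵥ (M t *ᵥ y t)).re = (star (y t) ⬝ᵥ (M t *ᵥ y')).re := by
    have : star y' ⬝ᵥ (M t *ᵥ y t) = star (star (y t) ⬝ᵥ (M t *ᵥ y')) := by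
      rw [← Matrix.star_dotProduct, Matrix.star_mulVec, hherm.eq, ← Matrix.dotProduct_mulVec]
    rw [this, Complex.star_def, Complex.conj_re]
  have e2 : Complex.reCLM (star y' ⬝ᵥ (M t *ᵥ y t) +
      (star (y t) ⬝ᵥ (M' *ᵥ y t) + star (y t) ⬝ᵥ (M t *ᵥ y'))) =
      qf M' (y t) + 2 * (star (y t) ⬝ᵥ (M t *ᵥ y')).re := by
    simp only [Complex.reCLM_apply, Complex.add_re, e, qf]
    ring
  rw [e2] at h1
  exact h1

theorem posDef_ge_smul {P Q : Matrix ι ι ℂ} (hP : P.PosDef) (hQ : Q.IsHermitian) :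
    ∃ a : ℝ, 0 < a ∧ (P - ((a : ℝ) : ℂ) • Q).PosSemidef := by
  obtain ⟨c, hc, hcP⟩ := exists_pos_smul_one_le hP
  obtain ⟨C, hC, hCQ⟩ := exists_le_smul_one hQ
  refine ⟨c / C, div_pos hc hC, ?_⟩
  have h1 := loewner_smul (div_pos hc hC).le hCQ
  rw [smul_smul, ← Complex.ofReal_mul, div_mul_cancel₀ _ hC.ne'] at h1
  exact loewner_trans h1 hcP

/-! ### the dual norm `N = qf h⁻¹ w` along a `PointFlow`: `t N' / N` is nondecreasing -/

variable {h A At : ℝ → Matrix ι ι ℂ}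

theorem ck_hasDerivAt_inv (F : PointFlow h A At) {t : ℝ} (ht : 0 < t) (j k : ι) :
    HasDerivAt (fun s => (h s)⁻¹ j k) (((h t)⁻¹ * A t * (h t)⁻¹) j k) t := by
  have := hasDerivAt_matInv (H := h) (H' := - A t) (fun j k => F.dt_h t ht j k)
    (F.pos t ht).det_pos.ne' j k
  simpa using this

theorem ck_hasDerivAt_y (F : PointFlow h A At) (w : ι → ℂ) {t : ℝ} (ht : 0 < t) (j : ι) :
    HasDerivAt (fun s => ((h s)⁻¹ *ᵥ w) j) (((h t)⁻¹ *ᵥ (A t *ᵥ ((h t)⁻¹ *ᵥ w))) j) t := by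
  have e : ((h t)⁻¹ *ᵥ (A t *ᵥ ((h t)⁻¹ *ᵥ w))) j
      = ∑ k, ((h t)⁻¹ * A t * (h t)⁻¹) j k * w k := by
    rw [Matrix.mulVec_mulVec, Matrix.mulVec_mulVec]
    rfl
  rw [e]
  have : (fun s => ((h s)⁻¹ *ᵥ w) j) = fun s => ∑ k, (h s)⁻¹ j k * w k := by
    funext s; rfl
  rw [this]
  exact HasDerivAt.fun_sum fun k _ => (ck_hasDerivAt_inv F ht j k).mul_const (w k)

theorem ck_hasDerivAt_N (F : PointFlow h A At) (w : ι → ℂ) {t : ℝ} (ht : 0 < t) :
    HasDerivAt (fun s => qf (h s)⁻¹ w) (qf (A t) ((h t)⁻¹ *ᵥ w)) t := by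
  have := hasDerivAt_qf (M := fun s => (h s)⁻¹) (y := fun _ => w) (y' := 0)
    (fun j k => ck_hasDerivAt_inv F ht j k) (F.pos t ht).inv.isHermitian
    (fun j => hasDerivAt_const t (w j))
  rw [Matrix.mulVec_zero, dotProduct_zero, Complex.zero_re, mul_zero, add_zero] at this
  have e : qf ((h t)⁻¹ * A t * (h t)⁻¹) w = qf (A t) ((h t)⁻¹ *ᵥ w) := by
    rw [← qf_conj, (F.pos t ht).inv.isHermitian.eq]
  rwa [e] at this

theorem ck_hasDerivAt_a (F : PointFlow h A At) (w : ι → ℂ) {t : ℝ} (ht : 0 < t) :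
    HasDerivAt (fun s => qf (A s) ((h s)⁻¹ *ᵥ w))
      (qf (At t) ((h t)⁻¹ *ᵥ w) + 2 * qf (A t * (h t)⁻¹ * A t) ((h t)⁻¹ *ᵥ w)) t := by
  have := hasDerivAt_qf (M := A) (y := fun s => (h s)⁻¹ *ᵥ w)
    (fun j k => F.dt_A t ht j k) (F.herm t ht) (fun j => ck_hasDerivAt_y F w ht j)
  have e : (star ((h t)⁻¹ *ᵥ w) ⬝ᵥ (A t *ᵥ ((h t)⁻¹ *ᵥ (A t *ᵥ ((h t)⁻¹ *ᵥ w))))).re
      = qf (A t * (h t)⁻¹ * A t) ((h t)⁻¹ *ᵥ w) := by
    rw [qf, Matrix.mulVec_mulVec, Matrix.mulVec_mulVec]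
  rwa [e] at this

/-- Cauchy-Schwarz: `(N')² ≤ N · qf (A h⁻¹ A) y`. -/
theorem ck_cs (F : PointFlow h A At) (w : ι → ℂ) {t : ℝ} (ht : 0 < t) :
    qf (A t) ((h t)⁻¹ *ᵥ w) ^ 2 ≤
      qf (h t)⁻¹ w * qf (A t * (h t)⁻¹ * A t) ((h t)⁻¹ *ᵥ w) := by
  have h1 := qf_cauchy_schwarz (F.pos t ht).inv.posSemidef w (A t *ᵥ ((h t)⁻¹ *ᵥ w))
  have e1 : qf (h t)⁻¹ (A t *ᵥ ((h t)⁻¹ *ᵥ w)) = qf (A t * (h t)⁻¹ * A t) ((h t)⁻¹ *ᵥ w) := by
    rw [← qf_conj, (F.herm t ht).eq]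
  have e2 : qf (A t) ((h t)⁻¹ *ᵥ w) = (star w ⬝ᵥ ((h t)⁻¹ *ᵥ (A t *ᵥ ((h t)⁻¹ *ᵥ w)))).re := by
    rw [qf, Matrix.star_mulVec, (F.pos t ht).inv.isHermitian.eq, ← Matrix.dotProduct_mulVec]
  rw [e1] at h1
  refine le_trans ?_ h1
  rw [e2, ← sq_abs]
  exact pow_le_pow_left₀ (abs_nonneg _) (Complex.abs_re_le_norm _) 2

theorem ck_N_pos (F : PointFlow h A At) {w : ι → ℂ} (hw : w ≠ 0) {t : ℝ} (ht : 0 < t) :
    0 < qf (h t)⁻¹ w := qf_pos (F.pos t ht).inv hw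

/-- `φ(t) = t N'(t) / N(t)`, the `τ`-derivative of `log N`, is nondecreasing. -/
theorem ck_phi_mono (F : PointFlow h A At) {w : ι → ℂ} (hw : w ≠ 0) :
    MonotoneOn (fun t => t * qf (A t) ((h t)⁻¹ *ᵥ w) / qf (h t)⁻¹ w) (Set.Ioi 0) := by
  have hd : ∀ x ∈ Set.Ioi (0 : ℝ), HasDerivAt
      (fun t => t * qf (A t) ((h t)⁻¹ *ᵥ w) / qf (h t)⁻¹ w)
      (((1 * qf (A x) ((h x)⁻¹ *ᵥ w) + x * (qf (At x) ((h x)⁻¹ *ᵥ w) +
        2 * qf (A x * (h x)⁻¹ * A x) ((h x)⁻¹ *ᵥ w))) * qf (h x)⁻¹ w -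
        x * qf (A x) ((h x)⁻¹ *ᵥ w) * qf (A x) ((h x)⁻¹ *ᵥ w)) / (qf (h x)⁻¹ w) ^ 2) x :=
    fun x hx => (((hasDerivAt_id x).mul (ck_hasDerivAt_a F w hx)).div (ck_hasDerivAt_N F w hx)
      (ck_N_pos F hw hx).ne')
  apply monotoneOn_of_deriv_nonneg (convex_Ioi 0)
  · exact fun x hx => (hd x hx).continuousAt.continuousWithinAt
  · rw [interior_Ioi]
    exact fun x hx => (hd x hx).differentiableAt.differentiableWithinAt
  · rw [interior_Ioi]
    intro x hx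
    rw [(hd x hx).deriv]
    have hx0 : (0 : ℝ) < x := hx
    apply div_nonneg _ (by positivity)
    have hN := ck_N_pos F hw hx0
    have hcs := ck_cs F w hx0
    have hH := qf_nonneg (F.harnack x hx0) ((h x)⁻¹ *ᵥ w)
    rw [harM, qf_add, qf_add, qf_smul] at hH
    set a := qf (A x) ((h x)⁻¹ *ᵥ w)
    set N := qf (h x)⁻¹ w
    set qAA := qf (A x * (h x)⁻¹ * A x) ((h x)⁻¹ *ᵥ w)
    set qAt := qf (At x) ((h x)⁻¹ *ᵥ w)
    have h1 : 0 ≤ x * (qAt + qAA + x⁻¹ * a) := mul_nonneg hx0.le hH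
    have h2 : x * (qAt + qAA + x⁻¹ * a) = x * qAt + x * qAA + a := by
      field_simp
    rw [h2] at h1
    have h3 : x * qAA ≤ 1 * a + x * (qAt + 2 * qAA) := by linarith
    have h4 : x * qAA * N ≤ (1 * a + x * (qAt + 2 * qAA)) * N :=
      mul_le_mul_of_nonneg_right h3 hN.le
    have h5 : x * a ^ 2 ≤ x * (N * qAA) := mul_le_mul_of_nonneg_left hcs hx0.le
    nlinarith


namespace PointFlow

/-- `t A ≥ λ h` propagates forward in time. -/
theorem propagate (F : PointFlow h A At) {t₀ t₁ : ℝ} (h0 : 0 < t₀) (h01 : t₀ ≤ t₁) {lam : ℝ}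
    (hl : (((t₀ : ℝ) : ℂ) • A t₀ - ((lam : ℝ) : ℂ) • h t₀).PosSemidef) :
    (((t₁ : ℝ) : ℂ) • A t₁ - ((lam : ℝ) : ℂ) • h t₁).PosSemidef := by
  have h1 : 0 < t₁ := lt_of_lt_of_le h0 h01
  rw [posSemidef_sub_iff_qf (isHermitian_smul_real _ (F.pos t₁ h1).isHermitian)
    (isHermitian_smul_real _ (F.herm t₁ h1))]
  intro y
  rw [qf_smul, qf_smul]
  by_cases hy : y = 0
  · subst hy; simp [qf_zero_vec]
  set w : ι → ℂ := h t₁ *ᵥ y with hw
  have hyw : (h t₁)⁻¹ *ᵥ w = y := by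
    rw [hw, Matrix.mulVec_mulVec, inv_mul_cancel_of_posDef (F.pos t₁ h1), Matrix.one_mulVec]
  have hw0 : w ≠ 0 := by
    intro h0'
    apply hy
    rw [← hyw, h0', Matrix.mulVec_zero]
  have hmono := ck_phi_mono F hw0 (Set.mem_Ioi.2 h0) (Set.mem_Ioi.2 h1) h01
  simp only at hmono
  have hl0 := qf_mono hl ((h t₀)⁻¹ *ᵥ w)
  rw [qf_smul, qf_smul, qf_inv_mulVec (F.pos t₀ h0)] at hl0
  have h2 : lam ≤ t₀ * qf (A t₀) ((h t₀)⁻¹ *ᵥ w) / qf (h t₀)⁻¹ w := by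
    rw [le_div_iff₀ (ck_N_pos F hw0 h0)]; exact hl0
  have h3 := h2.trans hmono
  rw [le_div_iff₀ (ck_N_pos F hw0 h1), ← qf_inv_mulVec (F.pos t₁ h1), hyw] at h3
  exact h3

theorem hasDerivAt_qf_h (F : PointFlow h A At) (v : ι → ℂ) {t : ℝ} (ht : 0 < t) :
    HasDerivAt (fun s => qf (h s) v) (- qf (A t) v) t := by
  have := hasDerivAt_qf (M := h) (M' := - A t) (y := fun _ => v) (y' := 0)
    (fun j k => F.dt_h t ht j k) (F.pos t ht).isHermitian (fun j => hasDerivAt_const t (v j))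
  rw [Matrix.mulVec_zero, dotProduct_zero, Complex.zero_re, mul_zero, add_zero, qf_neg] at this
  exact this

theorem qf_h_antitone (F : PointFlow h A At) (hA : ∀ t : ℝ, 0 < t → (A t).PosSemidef)
    (v : ι → ℂ) : AntitoneOn (fun t => qf (h t) v) (Set.Ioi 0) := by
  apply antitoneOn_of_deriv_nonpos (convex_Ioi 0)
  · exact fun x hx => (F.hasDerivAt_qf_h v hx).continuousAt.continuousWithinAt
  · rw [interior_Ioi]
    exact fun x hx => (F.hasDerivAt_qf_h v hx).differentiableAt.differentiableWithinAt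
  · rw [interior_Ioi]
    intro x hx
    rw [(F.hasDerivAt_qf_h v hx).deriv]
    exact neg_nonpos.2 (qf_nonneg (hA x hx) v)

theorem decay (F : PointFlow h A At) {a : ℝ}
    (ha : ∀ t : ℝ, 1 ≤ t → (((t : ℝ) : ℂ) • A t - ((a : ℝ) : ℂ) • h t).PosSemidef) (v : ι → ℂ)
    {t : ℝ} (ht : 1 ≤ t) : qf (h t) v ≤ t ^ (-a) * qf (h 1) v := by
  have hd : ∀ x ∈ Set.Ici (1 : ℝ), HasDerivAt (fun s => s ^ a * qf (h s) v)
      (a * x ^ (a - 1) * qf (h x) v + x ^ a * (- qf (A x) v)) x := fun x hx => by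
    have hx0 : 0 < x := lt_of_lt_of_le one_pos hx
    exact (Real.hasDerivAt_rpow_const (Or.inl hx0.ne')).mul (F.hasDerivAt_qf_h v hx0)
  have hm : AntitoneOn (fun s => s ^ a * qf (h s) v) (Set.Ici 1) := by
    apply antitoneOn_of_deriv_nonpos (convex_Ici 1)
    · exact fun x hx => (hd x hx).continuousAt.continuousWithinAt
    · rw [interior_Ici]
      exact fun x hx => (hd x (Set.mem_Ici.2 (le_of_lt hx))).differentiableAt.differentiableWithinAt
    · rw [interior_Ici]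
      intro x hx
      have hx1 : (1 : ℝ) ≤ x := le_of_lt hx
      have hx0 : 0 < x := lt_of_lt_of_le one_pos hx1
      rw [(hd x (Set.mem_Ici.2 hx1)).deriv]
      have h1 := qf_mono (ha x hx1) v
      rw [qf_smul, qf_smul] at h1
      have e : x ^ a = x ^ (a - 1) * x := by
        rw [← Real.rpow_add_one hx0.ne']; ring_nf
      rw [e]
      have hp : 0 < x ^ (a - 1) := Real.rpow_pos_of_pos hx0 _
      have : a * x ^ (a - 1) * qf (h x) v + x ^ (a - 1) * x * -qf (A x) v =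
          x ^ (a - 1) * (a * qf (h x) v - x * qf (A x) v) := by ring
      rw [this]
      exact mul_nonpos_of_nonneg_of_nonpos hp.le (by linarith)
  have := hm (Set.mem_Ici.2 le_rfl) (Set.mem_Ici.2 ht) ht
  simp only [Real.one_rpow, one_mul] at this
  have ht0 : 0 < t := lt_of_lt_of_le one_pos ht
  rw [Real.rpow_neg ht0.le, inv_mul_eq_div, le_div_iff₀ (Real.rpow_pos_of_pos ht0 _), mul_comm]
  exact this

end PointFlow

theorem mul_monotone_of_harnack {R : ℝ → ℝ} (hd : ∀ t : ℝ, 0 < t → DifferentiableAt ℝ R t)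
    (hh : ∀ t : ℝ, 0 < t → 0 ≤ deriv R t + R t / t) {s t : ℝ} (hs : 0 < s) (hst : s ≤ t) :
    s * R s ≤ t * R t := by
  have hd' : ∀ x ∈ Set.Ioi (0 : ℝ), HasDerivAt (fun x => x * R x) (1 * R x + x * deriv R x) x :=
    fun x hx => (hasDerivAt_id x).mul (hd x hx).hasDerivAt
  have hm : MonotoneOn (fun x => x * R x) (Set.Ioi 0) := by
    apply monotoneOn_of_deriv_nonneg (convex_Ioi 0)
    · exact fun x hx => (hd' x hx).continuousAt.continuousWithinAt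
    · rw [interior_Ioi]
      exact fun x hx => (hd' x hx).differentiableAt.differentiableWithinAt
    · rw [interior_Ioi]
      intro x hx
      rw [(hd' x hx).deriv]
      have h := hh x hx
      have hx' : (0 : ℝ) < x := hx
      have : 1 * R x + x * deriv R x = x * (deriv R x + R x / x) := by
        field_simp; ring
      rw [this]
      exact mul_nonneg hx'.le h
  exact hm hs (lt_of_lt_of_le hs hst) hst

theorem basepoint_bound {R ρ : ℝ → ℝ} {C : ℝ} (hRc : ContinuousOn R (Set.Ici 0))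
    (hρ : ∀ t : ℝ, 0 ≤ t → HasDerivWithinAt ρ (R t) (Set.Ici 0) t) (hρ0 : ∀ t : ℝ, 0 ≤ t → 0 ≤ ρ t)
    (hρC : ∀ t : ℝ, 0 ≤ t → ρ t ≤ C * (1 + t))
    (hmono : ∀ s t : ℝ, 0 < s → s ≤ t → s * R s ≤ t * R t) :
    ∃ C' : ℝ, ∀ t : ℝ, 0 ≤ t → R t ≤ C' := by
  obtain ⟨B, hB⟩ := (isCompact_Icc (a := (0 : ℝ)) (b := 1)).exists_bound_of_continuousOn
    (hRc.mono Set.Icc_subset_Ici_self)
  have hC0 : 0 ≤ C := by
    have := (hρ0 0 le_rfl).trans (hρC 0 le_rfl)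
    linarith
  have hlog2 : 0 < Real.log 2 := Real.log_pos (by norm_num)
  refine ⟨max B (3 * C / Real.log 2), fun t ht => ?_⟩
  rcases le_total t 1 with h1 | h1
  · exact ((le_abs_self _).trans (hB t ⟨ht, h1⟩)).trans (le_max_left _ _)
  · refine le_trans ?_ (le_max_right _ _)
    have ht0 : 0 < t := lt_of_lt_of_le one_pos h1
    have hd : ∀ x ∈ Set.Ici t, HasDerivAt (fun x => ρ x - t * R t * Real.log x)
        (R x - t * R t * x⁻¹) x := fun x hx => by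
      have hx' : 0 < x := lt_of_lt_of_le ht0 hx
      exact ((hρ x hx'.le).hasDerivAt (Ici_mem_nhds hx')).sub
        ((Real.hasDerivAt_log hx'.ne').const_mul _)
    have hm : MonotoneOn (fun x => ρ x - t * R t * Real.log x) (Set.Ici t) := by
      apply monotoneOn_of_deriv_nonneg (convex_Ici t)
      · exact fun x hx => (hd x hx).continuousAt.continuousWithinAt
      · rw [interior_Ici]
        exact fun x hx =>
          (hd x (Set.mem_Ici.2 (le_of_lt hx))).differentiableAt.differentiableWithinAt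
      · rw [interior_Ici]
        intro x hx
        rw [(hd x (Set.mem_Ici.2 (le_of_lt hx))).deriv]
        have hx' : 0 < x := lt_trans ht0 hx
        have h := hmono t x ht0 (le_of_lt hx)
        have : R x - t * R t * x⁻¹ = (x * R x - t * R t) * x⁻¹ := by
          field_simp
        rw [this]
        exact mul_nonneg (by linarith) (inv_nonneg.2 hx'.le)
    have h2 := hm (Set.mem_Ici.2 le_rfl) (Set.mem_Ici.2 (by linarith : t ≤ 2 * t)) (by linarith)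
    simp only at h2
    rw [Real.log_mul two_ne_zero ht0.ne'] at h2
    have h3 := hρC (2 * t) (by linarith)
    have h4 := hρ0 t ht
    have h5 : t * R t * Real.log 2 ≤ C * (3 * t) := by
      have : C * (1 + 2 * t) ≤ C * (3 * t) := mul_le_mul_of_nonneg_left (by linarith) hC0
      linarith
    rw [le_div_iff₀ hlog2]
    have h6 : t * (R t * Real.log 2) ≤ t * (3 * C) := by linarith
    exact le_of_mul_le_mul_left h6 ht0

end Claimed.Agent.R316
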